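import Mathlib

/-!
Weak limits of tight sequences with convergent marginals, in a Hausdorff space.
-/

set_option autoImplicit false

namespace P153DI

open MeasureTheory Filter Topology Set
open scoped NNReal BoundedContinuousFunction

variable {E : Type*} [TopologicalSpace E] [T2Space E] [MeasurableSpace E] [BorelSpace E]

/-- A tight sequence has a tight weak limit along every ultrafilter. -/
theorem ultra (μ : ℕ → Measure E) (hμ : ∀ n, IsProbabilityMeasure (μ n))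
    (ht : IsTightMeasureSet (range μ)) (U : Ultrafilter ℕ) :
    ∃ ν : Measure E, IsProbabilityMeasure ν ∧ IsTightMeasureSet {ν} ∧
      ∀ F : E →ᵇ ℝ, Tendsto (fun n => ∫ x, F x ∂μ n) U (𝓝 (∫ x, F x ∂ν)) := by
  obtain ⟨u, -, u_pos, u_lim⟩ :
      ∃ u : ℕ → ℝ≥0, StrictAnti u ∧ (∀ n, 0 < u n) ∧ Tendsto u atTop (𝓝 0) :=
    exists_seq_strictAnti_tendsto 0
  have A : ∀ j, ∃ K : Set E, IsCompact K ∧ ∀ n, μ n Kᶜ ≤ u j := fun j => by
    obtain ⟨K, h1, h2⟩ := isTightMeasureSet_iff_exists_isCompact_measure_compl_le.1 ht (u j)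
      (by exact_mod_cast u_pos j)
    exact ⟨K, h1, fun n => h2 _ ⟨n, rfl⟩⟩
  choose K hK1 hK2 using A
  have hc : ∀ j, IsCompact (accumulate K j) := fun j => isCompact_accumulate hK1 j
  have h1 : IsCompact {m : ProbabilityMeasure E | ∀ j, m (accumulate K j)ᶜ ≤ u j} :=
    isCompact_setOfPred_probabilityMeasure_mass_eq_compl_isCompact_le u_lim hc
      (Or.inr monotone_accumulate)
  let m : ℕ → ProbabilityMeasure E := fun n => ⟨μ n, hμ n⟩
  have h2 : ∀ n, m n ∈ {m : ProbabilityMeasure E | ∀ j, m (accumulate K j)ᶜ ≤ u j} := by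
    intro n j
    have h3 : μ n (accumulate K j)ᶜ ≤ u j :=
      (measure_mono (compl_subset_compl.2 subset_accumulate)).trans (hK2 j n)
    rw [← ENNReal.coe_le_coe, ProbabilityMeasure.ennreal_coeFn_eq_coeFn_toMeasure]
    exact h3
  obtain ⟨ν, hν, hl⟩ := h1.ultrafilter_le_nhds (U.map m)
    (le_principal_iff.2 (mem_map.2 (Eventually.of_forall h2)))
  refine ⟨ν, inferInstance, ?_, fun F => ?_⟩
  · rw [isTightMeasureSet_iff_exists_isCompact_measure_compl_le]
    intro ε hε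
    have h4 : Tendsto (fun j => (u j : ENNReal)) atTop (𝓝 0) := by
      have := ENNReal.tendsto_coe.2 u_lim
      rwa [ENNReal.coe_zero] at this
    obtain ⟨j, hj⟩ := (h4.eventually (ge_mem_nhds hε)).exists
    refine ⟨_, hc j, ?_⟩
    rintro _ rfl
    refine le_trans ?_ hj
    have h5 := hν j
    rwa [← ENNReal.coe_le_coe, ProbabilityMeasure.ennreal_coeFn_eq_coeFn_toMeasure] at h5
  · have h6 : Tendsto m U (𝓝 ν) := hl
    exact ProbabilityMeasure.tendsto_iff_forall_integral_tendsto.1 h6 F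

/-- A bounded continuous function. -/
noncomputable def bcf {X : Type*} [TopologicalSpace X] (F : X → ℝ) (h1 : Continuous F)
    (h2 : ∃ M, ∀ x, |F x| ≤ M) : X →ᵇ ℝ :=
  BoundedContinuousFunction.ofNormedAddCommGroup F h1 h2.choose h2.choose_spec

/-- A tight sequence with convergent marginals, which determine the integrals. -/
theorem gen {κ : Type*} (f : κ → E → ℝ) (hf : ∀ i, Continuous (f i)) (γ : κ → Measure ℝ)
    (hγ : ∀ i, IsProbabilityMeasure (γ i)) (μ : ℕ → Measure E)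
    (hμ : ∀ n, IsProbabilityMeasure (μ n)) (ht : IsTightMeasureSet (range μ))
    (hlim : ∀ i (F : ℝ → ℝ), Continuous F → (∃ M, ∀ x, |F x| ≤ M) →
      Tendsto (fun n => ∫ x, F (f i x) ∂μ n) atTop (𝓝 (∫ x, F x ∂γ i)))
    (hu : ∀ ν ν' : Measure E, IsProbabilityMeasure ν → IsProbabilityMeasure ν' →
      IsTightMeasureSet {ν} → IsTightMeasureSet {ν'} →
      (∀ i, ν.map (f i) = ν'.map (f i)) → ∀ F : E →ᵇ ℝ, ∫ x, F x ∂ν = ∫ x, F x ∂ν') :
    (∃ ν : Measure E, IsProbabilityMeasure ν ∧ IsTightMeasureSet {ν} ∧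
      ∀ i, ν.map (f i) = γ i) ∧
    ∀ ν : Measure E, IsProbabilityMeasure ν → IsTightMeasureSet {ν} → (∀ i, ν.map (f i) = γ i) →
      ∀ F : E → ℝ, Continuous F → (∃ M, ∀ x, |F x| ≤ M) →
        Tendsto (fun n => ∫ x, F x ∂μ n) atTop (𝓝 (∫ x, F x ∂ν)) := by
  have key : ∀ U : Ultrafilter ℕ, (U : Filter ℕ) ≤ atTop → ∃ ν : Measure E,
      IsProbabilityMeasure ν ∧ IsTightMeasureSet {ν} ∧ (∀ i, ν.map (f i) = γ i) ∧
      ∀ F : E →ᵇ ℝ, Tendsto (fun n => ∫ x, F x ∂μ n) U (𝓝 (∫ x, F x ∂ν)) := by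
    intro U hU
    obtain ⟨ν, h1, h2, h3⟩ := ultra μ hμ ht U
    refine ⟨ν, h1, h2, fun i => ?_, h3⟩
    have := hγ i
    refine ext_of_forall_integral_eq_of_IsFiniteMeasure fun G => ?_
    rw [integral_map (hf i).measurable.aemeasurable G.continuous.aestronglyMeasurable]
    have h4 := h3 (G.compContinuous ⟨f i, hf i⟩)
    have h5 := (hlim i G G.continuous ⟨‖G‖, fun x => G.norm_coe_le_norm x⟩).mono_left hU
    exact tendsto_nhds_unique h4 h5
  constructor
  · obtain ⟨ν, h1, h2, h3, -⟩ := key (Ultrafilter.of atTop) (Ultrafilter.of_le _)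
    exact ⟨ν, h1, h2, h3⟩
  · intro ν h1 h2 h3 F hF hM
    refine (tendsto_iff_ultrafilter _ _ _).2 fun U hU => ?_
    obtain ⟨ν', a1, a2, a3, a4⟩ := key U hU
    have h4 := hu ν ν' h1 a1 h2 a2 (fun i => (h3 i).trans (a3 i).symm) (bcf F hF hM)
    have h5 := a4 (bcf F hF hM)
    rw [← h4] at h5
    exact h5

end P153DI
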