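import Vale.Agent.P153DI.Tight
import Vale.Agent.P153DI.Gen

/-!
Convergence in law in a separable Hilbert space.
-/

set_option autoImplicit false

namespace P153DI

open MeasureTheory Filter Topology Set Metric

variable {H : Type*} [NormedAddCommGroup H] [InnerProductSpace ℝ H] [CompleteSpace H]
  [SecondCountableTopology H] [MeasurableSpace H] [BorelSpace H]

/-- The marginals along a dense set of directions determine the law. -/
theorem uniq {S : Set H} (hS : Dense S) {ν ν' : Measure H} [IsFiniteMeasure ν]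
    [IsFiniteMeasure ν']
    (h : ∀ v ∈ S, ν.map (fun w => inner ℝ v w) = ν'.map (fun w => inner ℝ v w)) : ν = ν' := by
  refine Measure.ext_of_charFun ?_
  refine Continuous.ext_on hS continuous_charFun continuous_charFun fun v hv => ?_
  have hm : Measurable fun w : H => inner ℝ v w :=
    (continuous_const.inner continuous_id).measurable
  have hc : Continuous fun x : ℝ => Complex.exp (x * Complex.I) := by fun_prop
  have e : ∀ m : Measure H, charFun m v =
      ∫ x : ℝ, Complex.exp (x * Complex.I) ∂m.map (fun w => inner ℝ v w) := fun m => by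
    rw [integral_map hm.aemeasurable hc.aestronglyMeasurable, charFun_apply]
    simp only [real_inner_comm]
  rw [e, e, h v hv]

/-- **Convergence in law in a Hilbert space**, for measures. -/
theorem hil (μ : ℕ → Measure H) (hμ : ∀ n, IsProbabilityMeasure (μ n))
    (hint : ∀ n, Integrable (fun w => ‖w‖ ^ 2) (μ n))
    (hC : ∃ C : ℝ, ∀ n, ∫ w, ‖w‖ ^ 2 ∂μ n ≤ C)
    (hF : ∀ ε > 0, ∃ F : Submodule ℝ H, FiniteDimensional ℝ F ∧
      ∀ n, ∫ w, infDist w (F : Set H) ^ 2 ∂μ n ≤ ε)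
    {κ : Type*} (v : κ → H) (hv : DenseRange v) (γ : κ → Measure ℝ)
    (hγ : ∀ i, IsProbabilityMeasure (γ i))
    (hlim : ∀ i (F : ℝ → ℝ), Continuous F → (∃ M, ∀ x, |F x| ≤ M) →
      Tendsto (fun n => ∫ w, F (inner ℝ (v i) w) ∂μ n) atTop (𝓝 (∫ x, F x ∂γ i))) :
    IsTightMeasureSet (range μ) ∧
    (∃ ν : Measure H, IsProbabilityMeasure ν ∧ ∀ i, ν.map (fun w => inner ℝ (v i) w) = γ i) ∧
    ∀ ν : Measure H, IsProbabilityMeasure ν → (∀ i, ν.map (fun w => inner ℝ (v i) w) = γ i) →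
      ∀ F : H → ℝ, Continuous F → (∃ M, ∀ x, |F x| ≤ M) →
        Tendsto (fun n => ∫ w, F w ∂μ n) atTop (𝓝 (∫ w, F w ∂ν)) := by
  have ht := tight μ hμ hint hC hF
  obtain ⟨⟨ν, h1, -, h2⟩, h3⟩ := gen (fun i w => inner ℝ (v i) w)
    (fun i => continuous_const.inner continuous_id) γ hγ μ hμ ht hlim (by
      intro ν ν' a1 a2 _ _ a3 F
      rw [uniq (ν := ν) (ν' := ν') hv (by rintro _ ⟨i, rfl⟩; exact a3 i)])
  exact ⟨ht, ⟨ν, h1, h2⟩, fun ν a1 a2 => h3 ν a1 isTightMeasureSet_singleton a2⟩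

/-- **Convergence in law in a Hilbert space**, for random variables. -/
theorem hil_rv {α : ℕ → Type*} [∀ n, MeasurableSpace (α n)] (P : ∀ n, Measure (α n))
    (hP : ∀ n, IsProbabilityMeasure (P n)) (W : ∀ n, α n → H)
    (hW : ∀ n, AEMeasurable (W n) (P n))
    (hint : ∀ n, Integrable (fun h => ‖W n h‖ ^ 2) (P n))
    (hC : ∃ C : ℝ, ∀ n, ∫ h, ‖W n h‖ ^ 2 ∂P n ≤ C)
    (hF : ∀ ε > 0, ∃ F : Submodule ℝ H, FiniteDimensional ℝ F ∧
      ∀ n, ∫ h, infDist (W n h) (F : Set H) ^ 2 ∂P n ≤ ε)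
    {κ : Type*} (v : κ → H) (hv : DenseRange v) (γ : κ → Measure ℝ)
    (hγ : ∀ i, IsProbabilityMeasure (γ i))
    (hlim : ∀ i (F : ℝ → ℝ), Continuous F → (∃ M, ∀ x, |F x| ≤ M) →
      Tendsto (fun n => ∫ h, F (inner ℝ (v i) (W n h)) ∂P n) atTop (𝓝 (∫ x, F x ∂γ i))) :
    IsTightMeasureSet (range fun n => (P n).map (W n)) ∧
    (∃ ν : Measure H, IsProbabilityMeasure ν ∧ ∀ i, ν.map (fun w => inner ℝ (v i) w) = γ i) ∧
    ∀ ν : Measure H, IsProbabilityMeasure ν → (∀ i, ν.map (fun w => inner ℝ (v i) w) = γ i) →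
      ∀ F : H → ℝ, Continuous F → (∃ M, ∀ x, |F x| ≤ M) →
        Tendsto (fun n => ∫ h, F (W n h) ∂P n) atTop (𝓝 (∫ w, F w ∂ν)) := by
  have e : ∀ n (G : H → ℝ), Continuous G → ∫ w, G w ∂(P n).map (W n) = ∫ h, G (W n h) ∂P n :=
    fun n G hG => integral_map (hW n) hG.aestronglyMeasurable
  have c1 : Continuous fun w : H => ‖w‖ ^ 2 := continuous_norm.pow 2
  obtain ⟨h1, h2, h3⟩ := hil (fun n => (P n).map (W n))
    (fun n => by have := hP n; exact Measure.isProbabilityMeasure_map (hW n))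
    (fun n => (integrable_map_measure c1.aestronglyMeasurable (hW n)).2 (hint n))
    (by
      obtain ⟨C, hC⟩ := hC
      exact ⟨C, fun n => by rw [e n _ c1]; exact hC n⟩)
    (fun ε hε => by
      obtain ⟨F, a1, a2⟩ := hF ε hε
      have c2 : Continuous fun w : H => infDist w (F : Set H) ^ 2 :=
        (continuous_infDist_pt _).pow 2
      exact ⟨F, a1, fun n => by rw [e n _ c2]; exact a2 n⟩)
    v hv γ hγ (fun i F a1 a2 => by
      refine (hlim i F a1 a2).congr fun n => ?_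
      exact (e n (fun w => F (inner ℝ (v i) w))
        (a1.comp (continuous_const.inner continuous_id))).symm)
  refine ⟨h1, h2, fun ν a1 a2 F a3 a4 => (h3 ν a1 a2 F a3 a4).congr fun n => e n F a3⟩

end P153DI
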