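import Mathlib

/-!
Tightness in a Hilbert space from second moments.
-/

set_option autoImplicit false

namespace P153DI

open MeasureTheory Filter Topology Set Metric

variable {H : Type*} [NormedAddCommGroup H] [NormedSpace ℝ H]

theorem cpt [CompleteSpace H] (R : ℝ) (F : ℕ → Submodule ℝ H)
    (hF : ∀ j, FiniteDimensional ℝ (F j)) :
    IsCompact (closedBall (0 : H) R ∩
      ⋂ j : ℕ, {w | infDist w (F j : Set H) ≤ 1 / ((j : ℝ) + 1)}) := by
  refine isCompact_iff_totallyBounded_isComplete.2 ⟨?_, IsClosed.isComplete ?_⟩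
  · refine Metric.totallyBounded_iff.2 fun ε hε => ?_
    obtain ⟨j, hj⟩ := exists_nat_one_div_lt (half_pos hε)
    have := hF j
    have hA : IsCompact ((F j).subtypeL '' closedBall (0 : F j) (R + ε)) :=
      (isCompact_closedBall _ _).image (F j).subtypeL.continuous
    obtain ⟨t, ht, hc⟩ := Metric.totallyBounded_iff.1 hA.totallyBounded (ε / 2) (half_pos hε)
    refine ⟨t, ht, fun w hw => ?_⟩
    have h1 : infDist w (F j : Set H) < ε / 2 := lt_of_le_of_lt (mem_iInter.1 hw.2 j) hj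
    obtain ⟨y, hy, hd⟩ := (infDist_lt_iff ⟨0, (F j).zero_mem⟩).1 h1
    have h2 : y ∈ (F j).subtypeL '' closedBall (0 : F j) (R + ε) := by
      refine ⟨⟨y, hy⟩, ?_, rfl⟩
      rw [mem_closedBall_zero_iff]
      have h3 : ‖w‖ ≤ R := mem_closedBall_zero_iff.1 hw.1
      have h4 : ‖y‖ ≤ ‖w‖ + dist w y := by
        rw [dist_eq_norm]
        have := norm_sub_le w (w - y)
        rwa [sub_sub_cancel] at this
      show ‖y‖ ≤ R + ε
      linarith
    obtain ⟨z, hz, hyz⟩ := mem_iUnion₂.1 (hc h2)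
    refine mem_iUnion₂.2 ⟨z, hz, ?_⟩
    rw [mem_ball] at hyz ⊢
    linarith [dist_triangle w y z]
  · refine isClosed_closedBall.inter (isClosed_iInter fun j => ?_)
    exact isClosed_le (continuous_infDist_pt _) continuous_const

theorem infDist_le_norm (F : Submodule ℝ H) (w : H) : infDist w (F : Set H) ≤ ‖w‖ := by
  have := infDist_le_dist_of_mem (x := w) F.zero_mem
  rwa [dist_zero_right] at this

variable [MeasurableSpace H] [BorelSpace H]

theorem markov {μ : Measure H} {f : H → ℝ} (h0 : ∀ w, 0 ≤ f w)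
    (hf : Integrable (fun w => f w ^ 2) μ) {r c : ℝ} (hr : 0 < r)
    (hc : ∫ w, f w ^ 2 ∂μ ≤ c * r ^ 2) [IsFiniteMeasure μ] :
    μ {w | r < f w} ≤ ENNReal.ofReal c := by
  have h1 := mul_meas_ge_le_integral_of_nonneg (μ := μ) (f := fun w => f w ^ 2)
    (ae_of_all _ fun w => sq_nonneg (f w)) hf (r ^ 2)
  have h2 : μ.real {w | r ^ 2 ≤ f w ^ 2} ≤ c := by
    have h3 : (0 : ℝ) < r ^ 2 := by positivity
    have h4 : r ^ 2 * μ.real {w | r ^ 2 ≤ f w ^ 2} ≤ r ^ 2 * c := by linarith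
    exact le_of_mul_le_mul_left h4 h3
  have h5 : {w | r < f w} ⊆ {w | r ^ 2 ≤ f w ^ 2} := fun w hw => by
    have h6 : r < f w := hw
    show r ^ 2 ≤ f w ^ 2
    nlinarith [h0 w]
  refine (measure_mono h5).trans ?_
  rw [← ofReal_measureReal]
  exact ENNReal.ofReal_le_ofReal h2

/-- Tightness from the second moments of the norm and of the distances to finite-dimensional
subspaces. -/
theorem tight [CompleteSpace H] {ι : Type*} (μ : ι → Measure H)
    (hμ : ∀ n, IsProbabilityMeasure (μ n))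
    (hint : ∀ n, Integrable (fun w => ‖w‖ ^ 2) (μ n))
    (hC : ∃ C : ℝ, ∀ n, ∫ w, ‖w‖ ^ 2 ∂μ n ≤ C)
    (hF : ∀ ε > 0, ∃ F : Submodule ℝ H, FiniteDimensional ℝ F ∧
      ∀ n, ∫ w, infDist w (F : Set H) ^ 2 ∂μ n ≤ ε) :
    IsTightMeasureSet (range μ) := by
  rw [isTightMeasureSet_iff_exists_isCompact_measure_compl_le]
  intro ε hε
  obtain ⟨e, he, hee⟩ : ∃ e : ℝ, 0 < e ∧ ENNReal.ofReal e ≤ ε := by
    rcases eq_or_ne ε ⊤ with h | h
    · exact ⟨1, one_pos, h ▸ le_top⟩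
    · exact ⟨ε.toReal, ENNReal.toReal_pos hε.ne' h, (ENNReal.ofReal_toReal h).le⟩
  obtain ⟨C, hC⟩ := hC
  have hp : ∀ j : ℕ, (0 : ℝ) < e / 2 / 2 / 2 ^ j * (1 / ((j : ℝ) + 1)) ^ 2 := fun j => by
    positivity
  choose F hF1 hF2 using fun j : ℕ => hF _ (hp j)
  obtain ⟨R, hR, hRC⟩ : ∃ R : ℝ, 0 < R ∧ C ≤ e / 2 * R ^ 2 := by
    refine ⟨1 + |C| / (e / 2), by positivity, ?_⟩
    have h1 : 0 ≤ |C| / (e / 2) := by positivity
    have h2 : e / 2 * (|C| / (e / 2)) = |C| := by field_simp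
    have h3 : |C| / (e / 2) ≤ (1 + |C| / (e / 2)) ^ 2 := by nlinarith
    have h4 := mul_le_mul_of_nonneg_left h3 (half_pos he).le
    linarith [le_abs_self C]
  refine ⟨_, cpt R F hF1, ?_⟩
  rintro _ ⟨n, rfl⟩
  have := hμ n
  rw [compl_inter, compl_iInter]
  have a1 : μ n (closedBall (0 : H) R)ᶜ ≤ ENNReal.ofReal (e / 2) := by
    have h1 : (closedBall (0 : H) R)ᶜ = {w | R < ‖w‖} := by
      ext w
      simp
    rw [h1]
    exact markov (fun w => norm_nonneg w) (hint n) hR ((hC n).trans hRC)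
  have a2 : ∀ j : ℕ, μ n {w | infDist w (F j : Set H) ≤ 1 / ((j : ℝ) + 1)}ᶜ ≤
      ENNReal.ofReal (e / 2 / 2 / 2 ^ j) := fun j => by
    have h1 : {w | infDist w (F j : Set H) ≤ 1 / ((j : ℝ) + 1)}ᶜ =
        {w | 1 / ((j : ℝ) + 1) < infDist w (F j : Set H)} := by
      ext w
      simp only [mem_compl_iff, mem_ofPred_eq, not_le]
    rw [h1]
    refine markov (fun w => infDist_nonneg) ?_ (by positivity) (hF2 j n)
    refine (hint n).mono' ((continuous_infDist_pt _).pow 2).measurable.aestronglyMeasurable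
      (ae_of_all _ fun w => ?_)
    rw [Real.norm_eq_abs, abs_of_nonneg (sq_nonneg _)]
    exact pow_le_pow_left₀ infDist_nonneg (infDist_le_norm _ w) 2
  have a3 : ∑' j : ℕ, ENNReal.ofReal (e / 2 / 2 / 2 ^ j) = ENNReal.ofReal (e / 2) := by
    rw [← ENNReal.ofReal_tsum_of_nonneg (fun j => by positivity) (summable_geometric_two' _),
      tsum_geometric_two']
  calc μ n _ ≤ μ n (closedBall (0 : H) R)ᶜ + μ n _ := measure_union_le _ _
    _ ≤ ENNReal.ofReal (e / 2) + ENNReal.ofReal (e / 2) := by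
      refine add_le_add a1 ((measure_iUnion_le _).trans ?_)
      rw [← a3]
      exact ENNReal.tsum_le_tsum a2
    _ = ENNReal.ofReal e := by
      rw [← ENNReal.ofReal_add (half_pos he).le (half_pos he).le, add_halves]
    _ ≤ ε := hee

end P153DI
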